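import Vale.Agent.P075.Bdl.B1

namespace Vale.Agent.Results.P075.DyadicL3Bound

open MeasureTheory Vale.Agent.P075

theorem result :
    ∃ C : ℝ, ∀ (S : Finset ℤ) (ε : ℤ → ℝ), (∀ k ∈ S, |ε k| ≤ 1) →
      ∀ F : Fin 3 → ℝ × ℝ → ℝ,
        (∀ v, AEStronglyMeasurable (F v) volume) →
        (∀ v, ∃ M : ℝ, ∀ p, |F v p| ≤ M) →
        (∀ v, HasCompactSupport (F v)) →
        |form S ε F| ≤ C * ∏ v, (eLpNorm (F v) 3
          (volume.restrict (Set.Ici (0 : ℝ) ×ˢ Set.Ici (0 : ℝ)))).toReal :=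
  ⟨1827 / 2, fun S ε hε F hF hb hc => main S ε hε F hF hb hc⟩

end Vale.Agent.Results.P075.DyadicL3Bound
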